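import Vale.Agent.P022.H567.Gch
import Vale.Agent.P022.H916.Fld

/-!
P022: Frobenius elements and complex conjugations of the Galois group of a number field.
-/

open NumberField IsDedekindDomain
open scoped Pointwise

noncomputable section

namespace Vale.Agent.P022.H565

open Vale.Agent.P022 Vale.Agent.P022.C

/-- two embeddings of the algebraic numbers differ by an automorphism -/
theorem exists_aut (Φ Ψ : Qb →+* ℂ) : ∃ τ : GQ, ∀ x, Φ (τ x) = Ψ x := by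
  let _ : Algebra Qb ℂ := Φ.toAlgebra
  have : IsScalarTower ℚ Qb ℂ := IsScalarTower.of_algebraMap_eq fun x => by simp
  let ψ : Qb →ₐ[ℚ] ℂ := Ψ.toRatAlgHom
  let τ : Qb →ₐ[ℚ] Qb := ψ.restrictNormal Qb
  have hτ : ∀ x, Φ (τ x) = Ψ x := fun x => AlgHom.restrictNormal_commutes ψ Qb x
  exact ⟨AlgEquiv.ofBijective τ (Algebra.IsAlgebraic.algHom_bijective τ), hτ⟩

variable {K : Type} [Field K] [NumberField K] (j : K →+* Qb)

/-- an embedding of the algebraic numbers extending an embedding of `K` -/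
theorem exists_ext (φ : K →+* ℂ) : ∃ Φ : Qb →+* ℂ, ∀ x, Φ (j x) = φ x := by
  let _ : Algebra K Qb := j.toAlgebra
  let _ : Algebra K ℂ := φ.toAlgebra
  have : IsScalarTower ℚ K Qb := IsScalarTower.of_algebraMap_eq fun x => by simp
  have : Algebra.IsAlgebraic K Qb := Algebra.IsAlgebraic.tower_top (K := ℚ) K
  let Φ : Qb →ₐ[K] ℂ := IsAlgClosed.lift
  exact ⟨Φ, fun x => Φ.commutes x⟩

theorem exists_prime_mem (v : HeightOneSpectrum (𝓞 K)) :
    ∃ l : ℕ, l.Prime ∧ (l : 𝓞 K) ∈ v.asIdeal := by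
  have h1 : Finite (𝓞 K ⧸ v.asIdeal) := Ideal.finiteQuotientOfFreeOfNeBot _ v.ne_bot
  have := v.isPrime
  obtain ⟨l, hl⟩ := CharP.exists (𝓞 K ⧸ v.asIdeal)
  refine ⟨l, CharP.char_is_prime (𝓞 K ⧸ v.asIdeal) l, ?_⟩
  rw [← Ideal.Quotient.eq_zero_iff_mem, map_natCast, CharP.cast_eq_zero]

theorem fre_exists (v : HeightOneSpectrum (𝓞 K)) : ∃ P g, FrI j v P g := by
  obtain ⟨P, hP, hb⟩ := H916.exists_above j v.asIdeal v.isPrime
  obtain ⟨l, hl, hlv⟩ := exists_prime_mem v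
  have hlP : (l : 𝓞 Qb) ∈ P := by
    rw [← hb] at hlv
    have h1 : RingOfIntegers.mapRingHom j (l : 𝓞 K) ∈ P := hlv
    rwa [map_natCast] at h1
  obtain ⟨g, hg⟩ := H916.exists_frob j hP hl hlP
  rw [hb] at hg
  exact ⟨P, g, hP, hb, hg⟩

theorem fre_unique {A : Type} [CommGroup A] (χ : GK j →* A) (v : HeightOneSpectrum (𝓞 K))
    (hχ : ∀ P : Ideal (𝓞 Qb), P.IsPrime → below j P = v.asIdeal → ∀ g : GK j, InI j P g →
      χ g = 1) (P P' : Ideal (𝓞 Qb)) (g g' : GK j) (h : FrI j v P g) (h' : FrI j v P' g') :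
    χ g = χ g' := by
  obtain ⟨hP, hb, hg⟩ := h
  obtain ⟨hP', hb', hg'⟩ := h'
  obtain ⟨t, ht⟩ := H916.exists_smul j hP hP' (hb.trans hb'.symm)
  have h1 : χ (t * g * t⁻¹ * g'⁻¹) = 1 := by
    apply hχ P' hP' hb'
    intro x
    set q := Ideal.absNorm v.asIdeal
    obtain ⟨y, rfl⟩ : ∃ y : 𝓞 Qb, x = (g' : GQ) • y := ⟨(g' : GQ)⁻¹ • x, by rw [smul_inv_smul]⟩
    have h2 : ((t * g * t⁻¹ * g'⁻¹ : GK j) : GQ) • ((g' : GQ) • y) =
        (t : GQ) • (g : GQ) • (t : GQ)⁻¹ • y := by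
      simp only [smul_smul, Subgroup.coe_mul, Subgroup.coe_inv]
      congr 1
      group
    rw [h2]
    have h3 : (t : GQ) • (g : GQ) • (t : GQ)⁻¹ • y - y ^ q ∈ P' := by
      have h4 := hg ((t : GQ)⁻¹ • y)
      have h5 : (t : GQ) • ((g : GQ) • (t : GQ)⁻¹ • y - ((t : GQ)⁻¹ • y) ^ q) ∈ P' := by
        rw [ht]
        exact Ideal.smul_mem_pointwise_smul _ _ _ h4
      rwa [smul_sub, smul_pow', smul_inv_smul] at h5
    have h6 := P'.sub_mem h3 (hg' y)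
    rwa [sub_sub_sub_cancel_right] at h6
  have h7 : χ (t * g * t⁻¹ * g'⁻¹) = χ g * (χ g')⁻¹ := by
    simp only [map_mul, map_inv]
    rw [mul_comm (χ t) (χ g), mul_assoc (χ g), mul_inv_cancel, mul_one]
  rw [h7] at h1
  exact mul_inv_eq_one.mp h1

omit [NumberField K] in
theorem fre_conj {A : Type} [CommGroup A] (χ : GK j →* A) (φ : K →+* ℝ) (g g' : GK j)
    (h : CjI j φ g) (h' : CjI j φ g') : χ g = χ g' := by
  obtain ⟨Φ, hΦ, hg⟩ := h
  obtain ⟨Ψ, hΨ, hg'⟩ := h'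
  obtain ⟨τ, hτ⟩ := exists_aut Φ Ψ
  have hm : τ ∈ GK j := by
    intro x
    apply Φ.injective
    rw [hτ, hΦ, hΨ]
  have h1 : (⟨τ, hm⟩ : GK j) * g' = g * ⟨τ, hm⟩ := by
    apply Subtype.ext
    apply AlgEquiv.ext
    intro x
    apply Φ.injective
    show Φ (τ ((g' : GQ) x)) = Φ ((g : GQ) (τ x))
    rw [hτ, hg', hg, hτ]
  have h2 := congrArg χ h1
  rw [map_mul, map_mul, mul_comm] at h2
  exact (mul_right_cancel h2).symm

theorem fre_conj_exists (φ : K →+* ℝ) : ∃ g, CjI j φ g := by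
  obtain ⟨Φ, hΦ⟩ := exists_ext j (Complex.ofRealHom.comp φ)
  obtain ⟨τ, hτ⟩ := exists_aut Φ ((starRingEnd ℂ).comp Φ)
  have hm : τ ∈ GK j := by
    intro x
    apply Φ.injective
    rw [hτ]
    show starRingEnd ℂ (Φ (j x)) = Φ (j x)
    rw [hΦ]
    show starRingEnd ℂ ((φ x : ℝ) : ℂ) = ((φ x : ℝ) : ℂ)
    exact Complex.conj_ofReal _
  exact ⟨⟨τ, hm⟩, Φ, hΦ, hτ⟩

/-- [FRE] -/
theorem FRE : FREStmt := by
  intro K _ _ j
  exact ⟨fre_exists j, fun A _ χ v h P P' g g' => fre_unique j χ v h P P' g g',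
    fun A _ χ φ g g' => fre_conj j χ φ g g', fre_conj_exists j⟩

end Vale.Agent.P022.H565
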