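import Mathlib

/-!
Elements of the completion of a number field close to one are powers.
-/

open NumberField IsDedekindDomain Filter Topology

namespace Vale.Agent.P022.H565

variable {K : Type*} [Field K] [NumberField K] (v : HeightOneSpectrum (𝓞 K))

theorem valued_alg (x : K) :
    Valued.v (algebraMap K (v.adicCompletion K) x) = v.valuation K x :=
  HeightOneSpectrum.valuedAdicCompletion_eq_valuation' v x

theorem norm_lt_iff (x y : v.adicCompletion K) : ‖x‖ < ‖y‖ ↔ Valued.v x < Valued.v y := by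
  have h : ∀ z : v.adicCompletion K, ‖z‖ =
      WithZeroMulInt.toNNReal (NumberField.HeightOneSpectrum.absNorm_ne_zero v) (Valued.v z) :=
    fun z => NumberField.FinitePlace.norm_def v z
  rw [h, h, NNReal.coe_lt_coe]
  exact (WithZeroMulInt.toNNReal_strictMono
    (NumberField.HeightOneSpectrum.one_lt_absNorm_nnreal v)).lt_iff_lt

/-- The completion as a nontrivially normed field. -/
noncomputable abbrev nnf : NontriviallyNormedField (v.adicCompletion K) where
  toNormedField := inferInstance
  non_trivial := by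
    obtain ⟨π, hπ⟩ := v.valuation_exists_uniformizer K
    have h0 : algebraMap K (v.adicCompletion K) π ≠ 0 := by
      intro h
      have := valued_alg v π
      rw [h, map_zero, hπ] at this
      exact WithZero.exp_ne_zero this.symm
    refine ⟨(algebraMap K (v.adicCompletion K) π)⁻¹, ?_⟩
    rw [norm_inv, one_lt_inv₀ (norm_pos_iff.mpr h0)]
    have h1 := (norm_lt_iff v (algebraMap K (v.adicCompletion K) π) 1).mpr (by
      rw [valued_alg, hπ, map_one, ← WithZero.exp_zero, WithZero.exp_lt_exp]
      norm_num)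
    rwa [norm_one] at h1

theorem nhds_one {U : Set (v.adicCompletion K)} (hU : U ∈ 𝓝 (1 : v.adicCompletion K)) :
    ∃ k : ℕ, ∀ x : v.adicCompletion K, Valued.v (x - 1) ≤ WithZero.exp (-(k : ℤ)) → x ∈ U := by
  obtain ⟨ε, hε, hU⟩ := Metric.mem_nhds_iff.mp hU
  obtain ⟨π, hπ⟩ := v.valuation_exists_uniformizer K
  have hlt : ‖algebraMap K (v.adicCompletion K) π‖ < 1 := by
    have h1 := (norm_lt_iff v (algebraMap K (v.adicCompletion K) π) 1).mpr (by
      rw [valued_alg, hπ, map_one, ← WithZero.exp_zero, WithZero.exp_lt_exp]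
      norm_num)
    rwa [norm_one] at h1
  obtain ⟨k, hk⟩ := exists_pow_lt_of_lt_one hε hlt
  refine ⟨k + 1, fun x hx => hU ?_⟩
  rw [Metric.mem_ball, dist_eq_norm]
  refine lt_trans ?_ hk
  rw [← norm_pow, norm_lt_iff, map_pow, valued_alg, hπ]
  refine lt_of_le_of_lt hx ?_
  rw [← WithZero.exp_nsmul, WithZero.exp_lt_exp]
  push_cast
  simp

theorem pow_near {n : ℕ} (hn : n ≠ 0) : ∃ k : ℕ, ∀ x : v.adicCompletion K,
    Valued.v (x - 1) ≤ WithZero.exp (-(k : ℤ)) → ∃ y : v.adicCompletion K, y ≠ 0 ∧ y ^ n = x := by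
  let _ := nnf v
  have hn0 : (n : v.adicCompletion K) ≠ 0 := by
    rw [← map_natCast (algebraMap K (v.adicCompletion K))]
    exact (map_ne_zero _).mpr (Nat.cast_ne_zero.mpr hn)
  have h1 : HasStrictDerivAt (fun x : v.adicCompletion K => x ^ n)
      ((n : v.adicCompletion K) * 1 ^ (n - 1)) 1 := hasStrictDerivAt_pow n 1
  have h2 := h1.map_nhds_eq (by rwa [one_pow, mul_one])
  have h3 : {x : v.adicCompletion K | ∃ y : v.adicCompletion K, y ≠ 0 ∧ y ^ n = x} ∈
      𝓝 (1 : v.adicCompletion K) := by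
    have h4 : (1 : v.adicCompletion K) ^ n = 1 := one_pow n
    rw [h4] at h2
    rw [← h2, mem_map]
    filter_upwards [isOpen_ne.mem_nhds (one_ne_zero : (1 : v.adicCompletion K) ≠ 0)] with y hy
    exact ⟨y, hy, rfl⟩
  exact nhds_one v h3

end Vale.Agent.P022.H565
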