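import Vale.Agent.P022.H565.PowNear

/-!
Local norms and closeness to global norms.
-/

open NumberField IsDedekindDomain TensorProduct

namespace Vale.Agent.P022.H565

section defs

/-- The action of the Galois group on the base change. -/
noncomputable def act {K L : Type*} (R : Type*) [Field K] [Field L] [Algebra K L] [CommRing R]
    [Algebra K R] (g : L ≃ₐ[K] L) : R ⊗[K] L ≃ₐ[R] R ⊗[K] L :=
  Algebra.TensorProduct.congr AlgEquiv.refl g

/-- The element is a norm from the base change. -/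
def LN {K : Type*} (R L : Type*) [Field K] [Field L] [Algebra K L] [FiniteDimensional K L]
    [CommRing R] [Algebra K R] (α : K) : Prop :=
  ∃ y : R ⊗[K] L, ∏ g : L ≃ₐ[K] L, act R g y = algebraMap K (R ⊗[K] L) α

end defs

section general

variable {K L R : Type*} [Field K] [Field L] [Algebra K L] [CommRing R] [Algebra K R]

theorem act_tmul (g : L ≃ₐ[K] L) (r : R) (x : L) :
    act R g (r ⊗ₜ[K] x) = r ⊗ₜ[K] g x := by
  simp [act]

variable [FiniteDimensional K L]

theorem prod_act_tmul [IsGalois K L] (r : R) (x : L) :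
    ∏ g : L ≃ₐ[K] L, act R g (r ⊗ₜ[K] x) =
      (r ^ Module.finrank K L * algebraMap K R (Algebra.norm K x)) ⊗ₜ[K] 1 := by
  have h1 : ∀ s : Finset (L ≃ₐ[K] L), ∏ g ∈ s, act R g (r ⊗ₜ[K] x) =
      (r ^ s.card) ⊗ₜ[K] ∏ g ∈ s, g x := by
    classical
    intro s
    induction s using Finset.induction_on with
    | empty => simp [Algebra.TensorProduct.one_def]
    | insert a s ha ih =>
      rw [Finset.prod_insert ha, Finset.prod_insert ha, ih, act_tmul,
        Algebra.TensorProduct.tmul_mul_tmul, Finset.card_insert_of_notMem ha, pow_succ']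
  rw [h1, ← Algebra.norm_eq_prod_automorphisms, Finset.card_univ, ← Nat.card_eq_fintype_card,
    IsGalois.card_aut_eq_finrank, Algebra.algebraMap_eq_smul_one, ← TensorProduct.smul_tmul,
    Algebra.smul_def, mul_comm]

theorem ln_of_eq [IsGalois K L] {α : K} (r : R) (x : L)
    (h : r ^ Module.finrank K L * algebraMap K R (Algebra.norm K x) = algebraMap K R α) :
    LN R L α := by
  refine ⟨r ⊗ₜ[K] x, ?_⟩
  rw [prod_act_tmul, h]
  rfl

theorem ln_norm [IsGalois K L] (x : L) : LN R L (Algebra.norm K x) :=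
  ln_of_eq (1 : R) x (by rw [one_pow, one_mul])

theorem LN.mul {α β : K} (hα : LN R L α) (hβ : LN R L β) : LN R L (α * β) := by
  obtain ⟨y, hy⟩ := hα
  obtain ⟨z, hz⟩ := hβ
  refine ⟨y * z, ?_⟩
  simp only [map_mul, Finset.prod_mul_distrib, hy, hz]

theorem act_one (y : R ⊗[K] L) : act R (1 : L ≃ₐ[K] L) y = y := by
  induction y using TensorProduct.induction_on with
  | zero => simp
  | tmul r x => rw [act_tmul]; rfl
  | add a b ha hb => rw [map_add, ha, hb]

theorem LN.inv {α : K} (hα : LN R L α) : LN R L α⁻¹ := by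
  rcases eq_or_ne α 0 with rfl | h0
  · rwa [inv_zero]
  obtain ⟨y, hy⟩ := hα
  have hu : IsUnit y := by
    have h1 : IsUnit (algebraMap K (R ⊗[K] L) α) := (IsUnit.mk0 α h0).map _
    rw [← hy] at h1
    refine isUnit_of_dvd_unit ?_ h1
    have h2 := Finset.dvd_prod_of_mem (fun g : L ≃ₐ[K] L => act R g y)
      (Finset.mem_univ (1 : L ≃ₐ[K] L))
    rwa [act_one] at h2
  obtain ⟨u, rfl⟩ := hu
  refine ⟨((u⁻¹ : (R ⊗[K] L)ˣ) : R ⊗[K] L), ?_⟩
  have h3 : (∏ g : L ≃ₐ[K] L, act R g (u : R ⊗[K] L)) *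
      ∏ g : L ≃ₐ[K] L, act R g ((u⁻¹ : (R ⊗[K] L)ˣ) : R ⊗[K] L) = 1 := by
    rw [← Finset.prod_mul_distrib]
    refine Finset.prod_eq_one fun g _ => ?_
    rw [← map_mul, Units.mul_inv, map_one]
  have h4 : algebraMap K (R ⊗[K] L) α⁻¹ * algebraMap K (R ⊗[K] L) α = 1 := by
    rw [← map_mul, inv_mul_cancel₀ h0, map_one]
  rw [hy] at h3
  calc _ = (algebraMap K (R ⊗[K] L) α⁻¹ * algebraMap K (R ⊗[K] L) α) *
      ∏ g : L ≃ₐ[K] L, act R g ((u⁻¹ : (R ⊗[K] L)ˣ) : R ⊗[K] L) := by rw [h4, one_mul]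
    _ = _ := by rw [mul_assoc, h3, mul_one]

theorem LN.div {α β : K} (hα : LN R L α) (hβ : LN R L β) : LN R L (α / β) := by
  rw [div_eq_mul_inv]
  exact hα.mul hβ.inv

/-- Functoriality. -/
theorem LN.map {R' : Type*} [CommRing R'] [Algebra K R'] (φ : R →ₐ[K] R') {α : K}
    (hα : LN R L α) : LN R' L α := by
  obtain ⟨y, hy⟩ := hα
  refine ⟨Algebra.TensorProduct.map φ (AlgHom.id K L) y, ?_⟩
  have h1 : ∀ (g : L ≃ₐ[K] L) (z : R ⊗[K] L),
      Algebra.TensorProduct.map φ (AlgHom.id K L) (act R g z) =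
      act R' g (Algebra.TensorProduct.map φ (AlgHom.id K L) z) := by
    intro g z
    induction z using TensorProduct.induction_on with
    | zero => simp
    | tmul r x => simp [act_tmul]
    | add a b ha hb => simp only [map_add, ha, hb]
  simp only [← h1]
  rw [← map_prod, hy, AlgHom.commutes]

end general

section local_

variable {K L : Type*} [Field K] [NumberField K] [Field L] [Algebra K L] [FiniteDimensional K L]
  [IsGalois K L] (v : HeightOneSpectrum (𝓞 K))

variable (L) in
/-- An element close to a global norm is a local norm. -/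
theorem ln_of_close : ∃ k : ℕ, ∀ α : K, α ≠ 0 →
    (∃ w : L, v.valuation K (Algebra.norm K w / α - 1) ≤ WithZero.exp (-(k : ℤ))) →
    LN (v.adicCompletion K) L α := by
  obtain ⟨k, hk⟩ := pow_near (K := K) v (n := Module.finrank K L) Module.finrank_pos.ne'
  refine ⟨k, fun α h0 ⟨w, hw⟩ => ?_⟩
  obtain ⟨y, hy0, hy⟩ := hk (algebraMap K (v.adicCompletion K) (Algebra.norm K w / α)) (by
    rw [← map_one (algebraMap K (v.adicCompletion K)), ← map_sub, valued_alg]
    exact hw)
  refine ln_of_eq y⁻¹ w ?_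
  have hα : algebraMap K (v.adicCompletion K) α ≠ 0 := (map_ne_zero _).mpr h0
  rw [map_div₀] at hy
  have h2 : algebraMap K (v.adicCompletion K) (Algebra.norm K w) =
      y ^ Module.finrank K L * algebraMap K (v.adicCompletion K) α := by
    rw [hy, div_mul_cancel₀ _ hα]
  rw [h2, inv_pow, ← mul_assoc, inv_mul_cancel₀ (pow_ne_zero _ hy0), one_mul]

variable (L) in
/-- An element close to one is a local norm. -/
theorem ln_of_one : ∃ k : ℕ, ∀ α : K, v.valuation K (α - 1) ≤ WithZero.exp (-(k : ℤ)) →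
    LN (v.adicCompletion K) L α := by
  obtain ⟨k, hk⟩ := pow_near (K := K) v (n := Module.finrank K L) Module.finrank_pos.ne'
  refine ⟨k, fun α hw => ?_⟩
  obtain ⟨y, hy0, hy⟩ := hk (algebraMap K (v.adicCompletion K) α) (by
    rw [← map_one (algebraMap K (v.adicCompletion K)), ← map_sub, valued_alg]
    exact hw)
  refine ln_of_eq y 1 ?_
  rw [hy, map_one, map_one, mul_one]

end local_

end Vale.Agent.P022.H565
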