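import Vale.Agent.P022.H565.StG

/-!
P022: characters of `G_K`, induced representations (explicit types).
-/

open NumberField Matrix

noncomputable section

namespace Vale.Agent.P022.St

/-- the subgroup `G_K` of the elements of `G_ℚ` fixing `j(K)` -/
def GK {K : Type} [Field K] (j : K →+* AlgebraicClosure ℚ) :
    Subgroup (AlgebraicClosure ℚ ≃ₐ[ℚ] AlgebraicClosure ℚ) where
  carrier := {g | ∀ x : K, g (j x) = j x}
  mul_mem' {g h} hg hh x := by
    rw [AlgEquiv.mul_apply, hh, hg]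
  one_mem' x := rfl
  inv_mem' {g} hg x := by
    have h : g⁻¹ (g (j x)) = j x := by
      rw [← AlgEquiv.mul_apply, inv_mul_cancel]; rfl
    rwa [hg x] at h

/-- `r` is induced from the character `χ` of `G_K`: `G_K` acts on some vector `v` through `χ`
and the line of `v` is not stable under `G_ℚ` -/
def IsInd {K : Type} [Field K] {E : Type} [Field E] (j : K →+* AlgebraicClosure ℚ)
    (χ : GK j →* Eˣ) (r : (AlgebraicClosure ℚ ≃ₐ[ℚ] AlgebraicClosure ℚ) →* GL (Fin 2) E) : Prop :=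
  ∃ v : Fin 2 → E, (∀ h : GK j, (r h : Matrix (Fin 2) (Fin 2) E) *ᵥ v = (χ h : E) • v) ∧
    ∃ c, ∀ a : E, (r c : Matrix (Fin 2) (Fin 2) E) *ᵥ v ≠ a • v

/-- the character `χ` of `G_K` is attached to the function `ψ` on ideals (reciprocity law), away
from the primes dividing `B`: `χ` is unramified at the primes above `ℓ ∤ B`, and
`χ(Frob_𝔭) = ψ(𝔭)` -/
def Attached {K : Type} [Field K] [NumberField K] {E : Type} [Field E]
    (j : K →+* AlgebraicClosure ℚ) (χ : GK j →* Eˣ) (ψ : Ideal (𝓞 K) → E) (B : ℕ) : Prop :=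
  ∀ ℓ : ℕ, ℓ.Prime → ¬ ℓ ∣ B → ∀ P : Ideal (𝓞 (AlgebraicClosure ℚ)), P.IsPrime →
    (ℓ : 𝓞 (AlgebraicClosure ℚ)) ∈ P → ∀ g : GK j,
    ((∀ x : 𝓞 (AlgebraicClosure ℚ),
        (g : AlgebraicClosure ℚ ≃ₐ[ℚ] AlgebraicClosure ℚ) • x - x ∈ P) → χ g = 1) ∧
    ((∀ x : 𝓞 (AlgebraicClosure ℚ), (g : AlgebraicClosure ℚ ≃ₐ[ℚ] AlgebraicClosure ℚ) • x -
        x ^ Ideal.absNorm (P.comap (RingOfIntegers.mapRingHom j)) ∈ P) →
      (χ g : E) = ψ (P.comap (RingOfIntegers.mapRingHom j)))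

/-- extension of scalars of a representation -/
def bc {E : Type} [Field E] (E' : Type) [Field E'] [Algebra E E']
    (r : (AlgebraicClosure ℚ ≃ₐ[ℚ] AlgebraicClosure ℚ) →* GL (Fin 2) E) :
    (AlgebraicClosure ℚ ≃ₐ[ℚ] AlgebraicClosure ℚ) →* GL (Fin 2) E' :=
  (Matrix.GeneralLinearGroup.map (algebraMap E E')).comp r

end Vale.Agent.P022.St
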