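import Mathlib

/-!
P022: the Galois side of the statement. `G_ℚ` is the group of the automorphisms of an algebraic
closure `ℚ̄` of `ℚ`, with the Krull topology, `𝓞 ℚ̄` is the ring of all algebraic integers.
-/

open NumberField Matrix

noncomputable section

namespace Vale.Agent.P022.St

/-- `g` is a Frobenius element at `ℓ`: `g x ≡ x ^ ℓ` modulo some prime ideal above `ℓ` -/
def IsFrob (ℓ : ℕ) (g : AlgebraicClosure ℚ ≃ₐ[ℚ] AlgebraicClosure ℚ) : Prop :=
  ∃ P : Ideal (𝓞 (AlgebraicClosure ℚ)), P.IsPrime ∧ (ℓ : 𝓞 (AlgebraicClosure ℚ)) ∈ P ∧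
    ∀ x : 𝓞 (AlgebraicClosure ℚ), g • x - x ^ ℓ ∈ P

/-- `c` is a complex conjugation: it becomes the conjugation of `ℂ` under some embedding -/
def IsConj (c : AlgebraicClosure ℚ ≃ₐ[ℚ] AlgebraicClosure ℚ) : Prop :=
  ∃ φ : AlgebraicClosure ℚ →+* ℂ, ∀ x, φ (c x) = starRingEnd ℂ (φ x)

section

variable {E : Type} [Field E]
  (r : (AlgebraicClosure ℚ ≃ₐ[ℚ] AlgebraicClosure ℚ) →* GL (Fin 2) E)

/-- `r` is unramified at `ℓ`: the inertia group of every prime ideal above `ℓ` acts trivially -/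
def UnrAt (ℓ : ℕ) : Prop :=
  ∀ P : Ideal (𝓞 (AlgebraicClosure ℚ)), P.IsPrime → (ℓ : 𝓞 (AlgebraicClosure ℚ)) ∈ P →
    ∀ g : AlgebraicClosure ℚ ≃ₐ[ℚ] AlgebraicClosure ℚ,
      (∀ x : 𝓞 (AlgebraicClosure ℚ), g • x - x ∈ P) → r g = 1

/-- `r` is odd: `det r(c) = -1` for the complex conjugations `c` -/
def OddRep : Prop :=
  ∀ c, IsConj c → (r c : Matrix (Fin 2) (Fin 2) E).det = -1

/-- `r` is absolutely irreducible: no line over the algebraic closure of `E` is stable -/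
def AbsIrr : Prop :=
  ∀ w : Fin 2 → AlgebraicClosure E, w ≠ 0 → ∃ g, ∀ a : AlgebraicClosure E,
    ((r g : Matrix (Fin 2) (Fin 2) E).map (algebraMap E (AlgebraicClosure E))) *ᵥ w ≠ a • w

/-- `r` is dihedral: there is a closed subgroup `H` of index two (the group `G_K` of a quadratic
field `K`) on which `r` is commutative -/
def Dihedral : Prop :=
  ∃ H : Subgroup (AlgebraicClosure ℚ ≃ₐ[ℚ] AlgebraicClosure ℚ),
    IsOpen (H : Set (AlgebraicClosure ℚ ≃ₐ[ℚ] AlgebraicClosure ℚ)) ∧ H.index = 2 ∧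
      ∀ g ∈ H, ∀ h ∈ H, r g * r h = r h * r g

/-- the same with traces: there is an open subgroup of index two outside which the trace of `r`
vanishes -/
def DihedralT : Prop :=
  ∃ H : Subgroup (AlgebraicClosure ℚ ≃ₐ[ℚ] AlgebraicClosure ℚ),
    IsOpen (H : Set (AlgebraicClosure ℚ ≃ₐ[ℚ] AlgebraicClosure ℚ)) ∧ H.index = 2 ∧
      ∀ g, g ∉ H → (r g : Matrix (Fin 2) (Fin 2) E).trace = 0

/-- the restriction of `r` to the group `G_K` of a quadratic field `K` has a stable line over the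
algebraic closure of `E` -/
def DihedralK : Prop :=
  ∃ (K : Type) (_ : Field K) (_ : NumberField K) (j : K →+* AlgebraicClosure ℚ)
    (w : Fin 2 → AlgebraicClosure E), Module.finrank ℚ K = 2 ∧ w ≠ 0 ∧
    ∀ g : AlgebraicClosure ℚ ≃ₐ[ℚ] AlgebraicClosure ℚ, (∀ x : K, g (j x) = j x) →
      ∃ a : AlgebraicClosure E,
        ((r g : Matrix (Fin 2) (Fin 2) E).map (algebraMap E (AlgebraicClosure E))) *ᵥ w = a • w

end

end Vale.Agent.P022.St
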