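import Vale.Agent.P022.H565.StA
import Vale.Agent.P022.H220.Dih

/-!
P022: the words of the statement are the words of the proof.
-/

open NumberField Matrix

noncomputable section

namespace Vale.Agent.P022.St

theorem isFrob_iff (ℓ : ℕ) (g : GQ) : St.IsFrob ℓ g ↔ P022.IsFrob ℓ g := Iff.rfl

theorem isConj_iff (g : GQ) : St.IsConj g ↔ P022.IsConj g := Iff.rfl

theorem unrAt_iff {E : Type} [Field E] (r : GQ →* GL (Fin 2) E) (ℓ : ℕ) :
    St.UnrAt r ℓ ↔ P022.UnrAt r ℓ := Iff.rfl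

theorem oddRep_iff {E : Type} [Field E] (r : GQ →* GL (Fin 2) E) :
    St.OddRep r ↔ P022.OddRep r := Iff.rfl

theorem absIrr_iff {E : Type} [Field E] (r : GQ →* GL (Fin 2) E) :
    St.AbsIrr r ↔ P022.AbsIrr r := Iff.rfl

theorem dihedralT_iff {E : Type} [Field E] (r : GQ →* GL (Fin 2) E) :
    St.DihedralT r ↔ P022.Dihedral r := Iff.rfl

theorem gk_eq {K : Type} [Field K] (j : K →+* AlgebraicClosure ℚ) :
    (St.GK j : Subgroup GQ) = P022.GK j := rfl

theorem isInd_iff {K : Type} [Field K] {E : Type} [Field E] (j : K →+* AlgebraicClosure ℚ)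
    (χ : P022.GK j →* Eˣ) (r : GQ →* GL (Fin 2) E) :
    St.IsInd j χ r ↔ P022.IsInd j χ r := Iff.rfl

theorem attached_iff {K : Type} [Field K] [NumberField K] {E : Type} [Field E]
    (j : K →+* AlgebraicClosure ℚ) (χ : P022.GK j →* Eˣ) (ψ : Ideal (𝓞 K) → E) (B : ℕ) :
    St.Attached j χ ψ B ↔ P022.Attached j χ ψ B := Iff.rfl

theorem dihedralK_iff {E : Type} [Field E] (r : GQ →* GL (Fin 2) E) :
    St.DihedralK r ↔ ∃ (K : Type) (_ : Field K) (_ : NumberField K) (j : K →+* Qb),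
      Module.finrank ℚ K = 2 ∧ RedOn j r := by
  constructor
  · rintro ⟨K, _, _, j, w, hK, hw, h⟩
    exact ⟨K, _, inferInstance, j, hK, w, hw, fun g => h g.1 g.2⟩
  · rintro ⟨K, _, _, j, hK, w, hw, h⟩
    exact ⟨K, _, inferInstance, j, w, hK, hw, fun g hg => h ⟨g, hg⟩⟩

end Vale.Agent.P022.St
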